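import Vale.Agent.P281.H740.TM.Spec
import Vale.Agent.P281.H76.Ord

/-!
# P281, project T-M, block T4b (helper399): `BallStmt`
-/

open Set Filter Metric
open Vale.Agent.P281 Vale.Agent.P281.H740.TM Vale.Agent.P281.MF
open Vale.Agent.P281.H64 (Cm)
open scoped Manifold ContDiff Topology

set_option linter.unusedSectionVars false

noncomputable section

namespace Vale.Agent.P281.H399.TM

theorem exists_fn {q : ℕ} {ψ : Cm (q + 1) → Cm (q + 2)} (h : ContDiffAt ℂ ω ψ 0)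
    (hi : Function.Injective (fderiv ℂ ψ 0)) :
    ∃ G : Cm (q + 2) → Cm (q + 1) × ℂ, ContDiffAt ℂ ω G (ψ 0) ∧ G (ψ 0) = 0 ∧
      (∀ᶠ y in 𝓝 (ψ 0), (G y).2 = 0 → y = ψ (G y).1) ∧
      fderiv ℂ (fun y => (G y).2) (ψ 0) ≠ 0 := by
  set L := fderiv ℂ ψ 0 with hL
  obtain ⟨n, hn⟩ : ∃ n : Cm (q + 2), ∀ v, L v ≠ n := by
    by_contra hcon
    push Not at hcon
    have h1 : LinearMap.range (L : Cm (q + 1) →ₗ[ℂ] Cm (q + 2)) = ⊤ :=
      LinearMap.range_eq_top.2 fun x => hcon x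
    have h2 := LinearMap.finrank_range_le (L : Cm (q + 1) →ₗ[ℂ] Cm (q + 2))
    rw [h1, finrank_top] at h2
    simp at h2
  set M : (Cm (q + 1) × ℂ) →L[ℂ] Cm (q + 2) :=
    L.coprod (ContinuousLinearMap.toSpanSingleton ℂ n) with hM
  have hMa : ∀ p, M p = L p.1 + p.2 • n := fun p => by
    simp [hM, ContinuousLinearMap.coprod_apply, ContinuousLinearMap.toSpanSingleton_apply]
  have hinj : Function.Injective (M : (Cm (q + 1) × ℂ) →ₗ[ℂ] Cm (q + 2)) := by
    rw [← LinearMap.ker_eq_bot, LinearMap.ker_eq_bot']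
    rintro ⟨v, s⟩ h0
    have h0' : L v + s • n = 0 := by rw [← hMa (v, s)]; exact h0
    by_cases hs : s = 0
    · rw [hs, zero_smul, add_zero] at h0'
      have : v = 0 := hi (by rw [h0', map_zero])
      rw [this, hs]
      rfl
    · refine absurd ?_ (hn (-(s⁻¹ • v)))
      have h1 : L v = -(s • n) := eq_neg_of_add_eq_zero_left h0'
      rw [map_neg, map_smul, h1, smul_neg, neg_neg, smul_smul, inv_mul_cancel₀ hs, one_smul]
  have hfin : Module.finrank ℂ (Cm (q + 1) × ℂ) = Module.finrank ℂ (Cm (q + 2)) := by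
    simp
  set e : (Cm (q + 1) × ℂ) ≃L[ℂ] Cm (q + 2) :=
    (LinearMap.linearEquivOfInjective _ hinj hfin).toContinuousLinearEquiv with he
  have heM : (e : (Cm (q + 1) × ℂ) →L[ℂ] Cm (q + 2)) = M := by
    exact ContinuousLinearMap.ext fun p => rfl
  set F : Cm (q + 1) × ℂ → Cm (q + 2) := fun p => ψ p.1 + p.2 • n with hF
  have hF0 : F 0 = ψ 0 := by simp [hF]
  have c : ContDiffAt ℂ ω F 0 := by
    refine ContDiffAt.add ?_ ?_
    · exact ContDiffAt.comp (g := ψ) (f := Prod.fst) (0 : Cm (q + 1) × ℂ) h contDiffAt_fst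
    · exact contDiffAt_snd.smul contDiffAt_const
  have hFd : HasFDerivAt F (e : (Cm (q + 1) × ℂ) →L[ℂ] Cm (q + 2)) 0 := by
    rw [heM]
    have h1 : HasFDerivAt ψ L (Prod.fst (0 : Cm (q + 1) × ℂ)) :=
      (h.differentiableAt (by simp)).hasFDerivAt
    have h2 := (h1.comp (0 : Cm (q + 1) × ℂ) hasFDerivAt_fst).add
      ((hasFDerivAt_snd (𝕜 := ℂ) (p := (0 : Cm (q + 1) × ℂ))).smul_const n)
    refine h2.congr_fderiv (ContinuousLinearMap.ext fun p => ?_)
    rw [hMa]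
    rfl
  have hst := c.hasStrictFDerivAt' hFd (by simp)
  refine ⟨c.localInverse hFd (by simp), ?_, ?_, ?_, ?_⟩
  · have := c.to_localInverse hFd (by simp)
    rwa [hF0] at this
  · have := c.localInverse_apply_image hFd (by simp)
    rwa [hF0] at this
  · have := hst.eventually_right_inverse
    rw [hF0] at this
    filter_upwards [this] with y hy h0
    have h1 : ψ (c.localInverse hFd (by simp) y).1 + (c.localInverse hFd (by simp) y).2 • n = y :=
      hy
    rw [h0, zero_smul, add_zero] at h1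
    exact h1.symm
  · intro h0
    have h1 := hst.to_localInverse.hasFDerivAt
    rw [hF0] at h1
    have h2 : HasFDerivAt (fun y => (c.localInverse hFd (by simp) y).2)
        ((ContinuousLinearMap.snd ℂ (Cm (q + 1)) ℂ).comp
          (e.symm : Cm (q + 2) →L[ℂ] (Cm (q + 1) × ℂ))) (ψ 0) :=
      (hasFDerivAt_snd).comp _ h1
    rw [h2.fderiv] at h0
    have h3 := congrArg (fun A : Cm (q + 2) →L[ℂ] ℂ => A (e (0, 1))) h0
    simp at h3

/-- **T4b** -/
theorem ball : BallStmt := by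
  intro q X _ _ _ _ E A hE hAE hA hd φ hφ
  obtain ⟨h1, h2, h3⟩ := hφ 0 (mem_ball_self one_pos)
  set x₀ := φ 0 with hx₀
  have hxE : x₀ ∈ E := hAE h3
  set ch := chartAt (Cm (q + 2)) x₀ with hch
  have hs₀ : x₀ ∈ ch.source := mem_chart_source _ _
  -- the immersion in the chart
  have hcv : HolV (Cm (q + 2)) (ch : X → Cm (q + 2)) x₀ := HolV.chart hs₀
  have hdet : (dV (Cm (q + 2)) (ch : X → Cm (q + 2)) x₀).det ≠ 0 := jac_chart_ne_zero hs₀
  set eq := LinearMap.equivOfDetNeZero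
    ((dV (Cm (q + 2)) (ch : X → Cm (q + 2)) x₀ : Cm (q + 2) →L[ℂ] Cm (q + 2)) :
      Cm (q + 2) →ₗ[ℂ] Cm (q + 2)) hdet with heq
  set ψ : Cm (q + 1) → Cm (q + 2) := fun v => ch (φ v) with hψ
  have c : ContMDiffAt 𝓘(ℂ, Cm (q + 1)) 𝓘(ℂ, Cm (q + 2)) ω ψ 0 :=
    ContMDiffAt.comp (0 : Cm (q + 1)) hcv h1
  have c' : ContDiffAt ℂ ω ψ 0 := contMDiffAt_iff_contDiffAt.1 c
  have hi : Function.Injective (fderiv ℂ ψ 0) := by
    have e1 : fderiv ℂ ψ 0 = (dV (Cm (q + 2)) (ch : X → Cm (q + 2)) x₀).comp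
        (mfderiv 𝓘(ℂ, Cm (q + 1)) 𝓘(ℂ, Cm (q + 2)) φ 0) := by
      rw [← mfderiv_eq_fderiv]
      exact mfderiv_comp (0 : Cm (q + 1)) hcv.mdiff (h1.mdifferentiableAt (by simp))
    intro u v huv
    rw [e1] at huv
    exact h2 (eq.injective huv)
  obtain ⟨G, hG, hG0, hG1, hG2⟩ := exists_fn c' hi
  set g : X → ℂ := fun z => (G (ch z)).2 with hg
  have hψ0 : ψ 0 = ch x₀ := rfl
  rw [hψ0] at hG hG0 hG1 hG2
  have hGs : ContDiffAt ℂ ω (fun y => (G y).2) (ch x₀) :=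
    ContDiffAt.comp (g := Prod.snd) (ch x₀) contDiffAt_snd hG
  have hgv : HolV (Cm (q + 2)) g x₀ := HolV.comp_contDiff (G := fun y => (G y).2) hGs hcv
  have hgd : dif (Cm (q + 2)) g x₀ ≠ 0 := by
    intro h0
    apply hG2
    have e1 : dV (Cm (q + 2)) g x₀ = (fderiv ℂ (fun y => (G y).2) (ch x₀)).comp
        (dV (Cm (q + 2)) (ch : X → Cm (q + 2)) x₀) :=
      dV_comp_contDiff (G := fun y => (G y).2) hGs hcv
    refine ContinuousLinearMap.ext fun u => ?_
    obtain ⟨v, rfl⟩ := eq.surjective u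
    have h4 := congrArg (fun B : Cm (q + 2) →L[ℂ] ℂ => B v) (e1.symm.trans h0)
    exact h4
  have hD : IsLocalEq (Cm (q + 2)) {z | g z = 0} g x₀ :=
    IsLocalEq.of_dif_ne hgv (Eventually.of_forall fun z => Iff.rfl) hgd
  have hx₀D : x₀ ∈ {z | g z = 0} := by
    show (G (ch x₀)).2 = 0
    rw [hG0]
    rfl
  -- the equation of `E`
  obtain ⟨e, he⟩ := hE.2.1 x₀
  have he' : IsLocalEq (Cm (q + 2)) E e x₀ := he
  obtain ⟨k, w, hw, hwe, hfr⟩ := H76.S.exists_order hD hx₀D he'.holAt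
    (leq_frequently_ne he').self_of_nhds
  -- the zeros of `g` are in `A`
  have hgA : ∀ᶠ z in 𝓝 x₀, g z = 0 → z ∈ A := by
    have t1 : Tendsto (fun z => ch z) (𝓝 x₀) (𝓝 (ch x₀)) := ch.continuousAt hs₀
    have t2 : Tendsto (fun z => (G (ch z)).1) (𝓝 x₀) (𝓝 0) := by
      have h5 : Tendsto (fun z => G (ch z)) (𝓝 x₀) (𝓝 (G (ch x₀))) :=
        (hG.continuousAt.tendsto).comp t1
      have h6 := (continuous_fst.tendsto _).comp h5
      rw [hG0] at h6
      exact h6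
    have t3 : ∀ᶠ v in 𝓝 (0 : Cm (q + 1)), φ v ∈ ch.source :=
      h1.continuousAt (ch.open_source.mem_nhds hs₀)
    filter_upwards [t1.eventually hG1, t2.eventually t3, t2.eventually (ball_mem_nhds _ one_pos),
      ch.open_source.mem_nhds hs₀] with z a1 a2 a3 a4 a5
    have h7 : z = φ (G (ch z)).1 := ch.injOn a4 a2 (a1 a5)
    rw [h7]
    exact (hφ _ a3).2.2
  obtain ⟨z₁, ⟨b1, b2⟩, b3, b4, b5, b6⟩ := (hfr.and_eventually ((eventually_eventually_nhds.2 hwe).and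
    (hw.eventually.and ((eventually_eventually_nhds.2 he'.eventually).and
      (eventually_eventually_nhds.2 hgA))))).exists
  have hz₁ : z₁ ∈ A := b6.self_of_nhds b1
  have hcl := mem_closure_iff_frequently.1 (hd (hAE hz₁))
  refine hcl ?_
  filter_upwards [b3, b4.continuousAt.eventually_ne b2, b5, b6] with z c1 c2 c3 c4 c5
  apply c5.2
  apply c4
  have h8 : e z = 0 := c3.mem_iff.1 c5.1
  rw [c1, mul_eq_zero] at h8
  rcases h8 with h8 | h8
  · exact eq_zero_of_pow_eq_zero h8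
  · exact absurd h8 c2

end Vale.Agent.P281.H399.TM
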